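import Crest.Agent.N250.Cc.Geo

-- ▼ part N250/Cc/Exp
section

/-!
# Row 250, block (B2), helper93: value and gradient along the Hensel curves are exponentially small.
-/

set_option autoImplicit false
set_option linter.unusedSectionVars false

open Set Metric Filter Topology Function

noncomputable section

namespace Crest.Agent.N250.Cc
open B2

variable {ι κ Γ : Type} [Fintype ι] [Fintype κ] [DecidableEq κ] {P : ℕ → ι ⊕ κ → ℝ} {q : ℕ}
  {al : ℝ} {Q : Cells Γ} {F : (κ → Γ) → (ι ⊕ κ → ℂ) → ℂ} {r c C d Λ r3 C1 : ℝ} {K μ : ℕ} {f0 : ℂ}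
  {z : ℝ → ℂ → ι ⊕ κ → ℂ}

theorem isOpen_dom (Q : Cells Γ) (r : ℝ) {U : κ → Γ} (hU : Q.Adm U) :
    IsOpen (Q.Dom (ι := ι) r U) := by
  have e : Q.Dom (ι := ι) r U = (⋂ i, {z | ‖z (Sum.inl i)‖ < r}) ∩
      ⋂ j, (fun z => z (Sum.inr j)) ⁻¹' Q.dom (U j) := by
    ext z; simp [Cells.Dom]
  rw [e]
  exact (isOpen_iInter_of_finite fun i => isOpen_lt (by fun_prop) continuous_const).inter
    (isOpen_iInter_of_finite fun j => (Q.isOpen _ (hU j)).preimage (continuous_apply _))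

theorem inv_le_sg (ha : 0 < al) (hq : 0 < q) {t : ℂ} (h0 : 0 < ‖t‖) (h1 : ‖t‖ ≤ 1) :
    ‖t‖⁻¹ ≤ al * sg al q t := by
  rw [sg, mul_inv, ← mul_assoc, mul_inv_cancel₀ ha.ne', one_mul]
  exact inv_anti₀ (by positivity) (pow_le_of_le_one h0.le h1 hq.ne')

theorem sg_pos (ha : 0 < al) {t : ℂ} (h0 : 0 < ‖t‖) : 0 < sg al q t := by
  rw [sg]; positivity

/-- gradient and value along the curve -/
def HH (Q : Cells Γ) (F : (κ → Γ) → (ι ⊕ κ → ℂ) → ℂ) (f0 : ℂ) (z : ℝ → ℂ → ι ⊕ κ → ℂ) (ρ : ℝ)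
    (t : ℂ) : ((ι ⊕ κ → ℂ) →L[ℂ] ℂ) × ℂ :=
  (fderiv ℂ (Fd Q F ρ) (z ρ t), Fd Q F ρ (z ρ t) - f0)

namespace Fm

theorem in4' (h : Fm Q F r c P q al d Λ r3 K f0 z μ C1) {t : ℂ} (h0 : 0 < ‖t‖) (h1 : ‖t‖ < r3)
    {y : ι ⊕ κ → ℂ} (hy : ‖y - cv P (K + 1) t‖ ≤ C1 * ‖t‖ ^ (K + 1)) :
    y ∈ ball (cv P (K + 1) t) (‖t‖ ^ K / 4) := by
  rw [mem_ball, dist_eq_norm]
  refine hy.trans_lt ?_
  have a : C1 * ‖t‖ < 1 / 4 := by
    rcases h.C_nonneg.eq_or_lt with e | e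
    · rw [← e]; norm_num
    · exact (mul_lt_mul_of_pos_left h1 e).trans_le h.C_le
  rw [pow_succ]
  nlinarith [pow_pos h0 K]

theorem in4 (h : Fm Q F r c P q al d Λ r3 K f0 z μ C1) {ρ : ℝ} {t : ℂ}
    (ht : t ∈ OO al q d Λ r3 ρ) : z ρ t ∈ ball (cv P (K + 1) t) (‖t‖ ^ K / 4) :=
  h.in4' ht.1 ht.2.1 (h.near ρ t ht)

theorem sub' (h : Fm Q F r c P q al d Λ r3 K f0 z μ C1) (ha : 0 < al) (hd : 1 < d) {ρ : ℝ} {t : ℂ}
    (ht : t ∈ OO al q d Λ r3 ρ) :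
    ball (cv P (K + 1) t) (‖t‖ ^ K) ⊆ Q.Dom r fun _ : κ => Q.disc ρ :=
  h.sub t ht.2.1 ρ ht.2.2.1.le (OO.pos ha hd ht) (OO.lt ha hd h.Λ_le ht)

theorem hh_hol (h : Fm Q F r c P q al d Λ r3 K f0 z μ C1) (hW : Wk Q F r c C) (ha : 0 < al)
    (hd : 1 < d) {ρ : ℝ} {t : ℂ} (ht : t ∈ OO al q d Λ r3 ρ) :
    DifferentiableAt ℂ (HH Q F f0 z ρ) t := by
  have hA := EX.adm_disc (κ := κ) Q (OO.pos ha hd ht) (OO.lt ha hd h.Λ_le ht)
  have hm : Q.Dom r (fun _ : κ => Q.disc ρ) ∈ 𝓝 (z ρ t) := (isOpen_dom Q r hA).mem_nhds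
    (h.sub' ha hd ht (ball_subset_ball (by linarith [pow_pos ht.1 K]) (h.in4 ht)))
  have hz : DifferentiableAt ℂ (z ρ) t :=
    (h.hol ρ).differentiableAt ((isOpen_OO _ _ _ _ _ _).mem_nhds ht)
  have a1 : DifferentiableAt ℂ (Fd Q F ρ) (z ρ t) := (hW.hol _ hA).differentiableAt hm
  have a2 : DifferentiableAt ℂ (fderiv ℂ (Fd Q F ρ)) (z ρ t) :=
    (H.diffOn_fderiv (isOpen_dom Q r hA) (hW.bdd _ hA) (hW.hol _ hA)).differentiableAt hm
  exact (a2.comp t hz).prodMk ((a1.comp t hz).sub_const f0)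

theorem hh_jmp (h : Fm Q F r c P q al d Λ r3 K f0 z μ C1) (hW : Wk Q F r c C) (ha : 0 < al)
    (hd : 1 < d) : ∃ C', 0 ≤ C' ∧ ∀ ρ ρ' ρm, ρ ≤ ρm → ρ' ≤ ρm → ρm < Q.ρ0 →
      ∀ t ∈ OO al q d Λ r3 ρ, t ∈ OO al q d Λ r3 ρ' → ‖HH Q F f0 z ρ t - HH Q F f0 z ρ' t‖ ≤
        C' * (Real.exp (-c / ρm) / ‖t‖ ^ (μ + 2 * K)) := by
  obtain ⟨Cj, pj, hj⟩ := h.jmp
  set B := 2 * (Fintype.card κ * max C 0) with hB
  have pB : 0 ≤ B := by positivity
  have pM : 0 ≤ max C 0 := le_max_right _ _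
  refine ⟨4 * B + 32 * max C 0 * Cj, by positivity, fun ρ ρ' ρm h1 h2 h3 t ht ht' => ?_⟩
  have hA := EX.adm_disc (κ := κ) Q (OO.pos ha hd ht) (OO.lt ha hd h.Λ_le ht)
  have hA' := EX.adm_disc (κ := κ) Q (OO.pos ha hd ht') (OO.lt ha hd h.Λ_le ht')
  have s1 := h.sub' ha hd ht
  have s2 := h.sub' ha hd ht'
  have he : ∀ y ∈ ball (cv P (K + 1) t) (‖t‖ ^ K), ‖Fd Q F ρ y - Fd Q F ρ' y‖ ≤
      B * Real.exp (-c / ρm) := fun y hy =>
    fd_cmp hW (OO.pos ha hd ht) (OO.pos ha hd ht') h1 h2 h3 (s1 hy) (s2 hy)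
  have hM : ∀ y ∈ ball (cv P (K + 1) t) (‖t‖ ^ K), ‖Fd Q F ρ' y‖ ≤ max C 0 := fun y hy =>
    (hW.bdd _ hA' y (s2 hy)).trans (le_max_left _ _)
  have g1 := pair_grad ((hW.hol _ hA).mono s1) ((hW.hol _ hA').mono s2) hM he (h.in4 ht) (h.in4 ht')
  have g2 := pair_val' ((hW.hol _ hA').mono s2) hM he (h.in4 ht) (h.in4 ht')
  have g3 := hj ρ ρ' ρm h1 h2 h3 t ht ht'
  have t0 := ht.1
  have t1 : ‖t‖ ≤ 1 := by linarith [ht.2.1, h.r3_le]
  set e := Real.exp (-c / ρm) with he'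
  have pe : 0 < e := Real.exp_pos _
  set β := e / ‖t‖ ^ (μ + 2 * K) with hβ
  have b0 : ∀ n ≤ μ + 2 * K, e / ‖t‖ ^ n ≤ β := fun n hn =>
    div_le_div_of_nonneg_left pe.le (by positivity) (pow_le_pow_of_le_one t0.le t1 hn)
  have b1 := b0 K (by omega)
  have b2 := b0 0 (by omega)
  have b3 := b0 (μ + K) (by omega)
  rw [pow_zero, div_one] at b2
  have c1 : 32 * max C 0 / (‖t‖ ^ K) ^ 2 * ‖z ρ t - z ρ' t‖ ≤ 32 * max C 0 * Cj * β := by
    refine (mul_le_mul_of_nonneg_left g3 (by positivity)).trans (le_of_eq ?_)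
    rw [hβ]; field_simp; ring
  have c2 : 4 * max C 0 / ‖t‖ ^ K * ‖z ρ t - z ρ' t‖ ≤ 4 * max C 0 * Cj * β := by
    refine (mul_le_mul_of_nonneg_left g3 (by positivity)).trans
      (le_trans (le_of_eq ?_) (mul_le_mul_of_nonneg_left b3 (by positivity)))
    field_simp; ring
  have c3 : 4 * (B * e) / ‖t‖ ^ K ≤ 4 * B * β := by
    rw [← mul_assoc, mul_div_assoc]; exact mul_le_mul_of_nonneg_left b1 (by positivity)
  have c4 : B * e ≤ B * β := mul_le_mul_of_nonneg_left b2 pB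
  have pβ : 0 ≤ β := by positivity
  have c5 : 0 ≤ max C 0 * Cj * β := by positivity
  have c6 : 0 ≤ B * β := by positivity
  rw [Prod.norm_def]
  refine max_le ?_ ?_
  · exact g1.trans (by linarith)
  · simp only [HH, Prod.snd_sub, sub_sub_sub_cancel_right]
    exact g2.trans (by linarith)

end Fm

/-- the parameter in the logarithmic coordinate -/
def tw (q : ℕ) (w : ℂ) : ℂ := Complex.exp (-w / q)

theorem norm_tw (q : ℕ) (w : ℂ) : ‖tw q w‖ = Real.exp (-w.re / q) := by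
  rw [tw, Complex.norm_exp, ← Complex.ofReal_natCast, Complex.div_ofReal_re, Complex.neg_re]

theorem norm_tw_pow (hq : 0 < q) (w : ℂ) : ‖tw q w‖ ^ q = Real.exp (-w.re) := by
  have : (q : ℝ) ≠ 0 := by positivity
  rw [norm_tw, ← Real.exp_nat_mul]; congr 1; field_simp

theorem sg_tw (hq : 0 < q) (al : ℝ) (w : ℂ) : sg al q (tw q w) = al⁻¹ * Real.exp w.re := by
  rw [sg, norm_tw_pow hq, mul_inv, Real.exp_neg, inv_inv]

theorem tw_log (hq : 0 < q) {t : ℂ} (ht : t ≠ 0) : tw q (-(q * Complex.log t)) = t := by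
  have : (q : ℂ) ≠ 0 := by exact_mod_cast hq.ne'
  rw [tw, neg_neg, mul_div_cancel_left₀ _ this, Complex.exp_log ht]

/-- value and gradient are exponentially small for a suitable radius -/
theorem Fm.exp_small {th : ℝ} (h : Fm Q F r c P q al th⁻¹ Λ r3 K f0 z μ C1) (hW : Wk Q F r c C)
    (ha : 0 < al) (hq : 0 < q) (t0 : 0 < th) (t1 : th < 1) (hΛ : (th ^ 2)⁻¹ * al ≤ Λ) :
    ∃ C', 0 ≤ C' ∧ ∀ t : ℂ, 0 < ‖t‖ → ‖t‖ < r3 → ∃ ρ, t ∈ OO al q th⁻¹ Λ r3 ρ ∧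
      ρ ≤ (th ^ 2 * sg al q t)⁻¹ ∧
      ‖HH Q F f0 z ρ t‖ ≤ C' * Real.exp (-(c * th ^ 3) * sg al q t) := by
  have hd : 1 < th⁻¹ := (one_lt_inv₀ t0).2 t1
  have hc := hW.c_pos
  have pq : (0 : ℝ) < q := by positivity
  set η := -Real.log th / 4 with hη
  have pη : 0 < η := by have := Real.log_neg t0 t1; rw [hη]; linarith
  have eη : Real.exp (4 * η) = th⁻¹ := by
    rw [hη, ← Real.exp_log t0, ← Real.exp_neg, Real.log_exp]; congr 1; ring
  set R := -(q * Real.log r3) with hR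
  set ρx : ℝ → ℝ := fun x => th⁻¹ * (al * Real.exp (2 * η - x)) with hρx
  have hlt : ∀ w : ℂ, R < w.re ↔ ‖tw q w‖ < r3 := fun w => by
    rw [norm_tw, ← Real.lt_log_iff_exp_lt h.r3_pos, div_lt_iff₀ pq, hR]
    constructor <;> intro <;> linarith
  have hle : ∀ (w : ℂ) x, |w.re - x| ≤ η → ρx x < (th ^ 2 * sg al q (tw q w))⁻¹ := fun w x hx => by
    rw [sg, norm_tw_pow hq, mul_inv, inv_inv, pow_two, mul_inv, mul_assoc, hρx]
    refine mul_lt_mul_of_pos_left ?_ (by positivity)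
    rw [← eη, mul_left_comm, ← Real.exp_add]
    exact mul_lt_mul_of_pos_left (Real.exp_lt_exp.2 (by linarith [abs_le.1 hx])) ha
  have hup : ∀ t : ℂ, 0 < ‖t‖ → ‖t‖ < r3 → (th ^ 2 * sg al q t)⁻¹ ≤ Λ * ‖t‖ := fun t a b => by
    rw [sg, mul_inv, inv_inv, ← mul_assoc]
    exact mul_le_mul hΛ (pow_le_of_le_one a.le (by linarith [h.r3_le]) hq.ne') (by positivity)
      (le_trans (by positivity) hΛ)
  have hp : ∀ w, 0 < ‖tw q w‖ := fun w => by rw [norm_tw]; exact Real.exp_pos _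
  have hmem : ∀ (w : ℂ) x, R < w.re → |w.re - x| ≤ η → tw q w ∈ OO al q th⁻¹ Λ r3 (ρx x) :=
    fun w x hw hx => ⟨hp w, (hlt w).1 hw, by
      rw [norm_tw_pow hq, hρx]
      exact mul_lt_mul_of_pos_left (mul_lt_mul_of_pos_left
        (Real.exp_lt_exp.2 (by linarith [abs_le.1 hx])) ha) (by positivity),
      (hle w x hx).trans_le (hup _ (hp w) ((hlt w).1 hw))⟩
  have hself : ∀ w : ℂ, |w.re - w.re| ≤ η := fun w => by simpa using pη.le
  obtain ⟨Cj, pj, hj⟩ := h.hh_jmp hW ha hd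
  have h23 : th ^ 3 < th ^ 2 := pow_lt_pow_right_of_lt_one₀ t0 t1 (by norm_num)
  set a1 := c * ((th ^ 2 + th ^ 3) / 2) with ha1
  have l1 : a1 < c * th ^ 2 := mul_lt_mul_of_pos_left (by linarith) hc
  have l2 : c * th ^ 3 < a1 := mul_lt_mul_of_pos_left (by linarith) hc
  have pa1 : 0 < a1 := lt_trans (by positivity) l2
  obtain ⟨A1, pA1, hA1⟩ := poly_abs (μ + 2 * K) l1 ha
  obtain ⟨A2, pA2, hA2⟩ := poly_abs 1 l2 ha
  have hap : W.Apx {w | R < w.re} η (fun w => HH Q F f0 z (ρx w.re) (tw q w))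
      fun w => Cj * A1 * Real.exp (-(a1 / al) * Real.exp w.re) := by
    refine W.apx_of_pieces (fun x : ℝ => {w | R < w.re ∧ |w.re - x| ≤ η})
      (fun x w => HH Q F f0 z (ρx x) (tw q w)) (fun x w hw => ?_) (fun x w hw _ => ?_)
      fun w₀ r' _ hr hs => ⟨w₀.re, fun w hw => ⟨hs hw, (W.abs_re_sub_le hw).trans hr⟩⟩
    · refine (DifferentiableAt.comp (g := HH Q F f0 z (ρx x)) w
        (h.hh_hol hW ha hd (hmem w x hw.1 hw.2)) ?_).differentiableWithinAt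
      unfold tw; fun_prop
    · have b := (hlt w).1 hw.1
      have ps := sg_pos (q := q) ha (hp w)
      have pΛ : 0 < Λ := lt_of_lt_of_le (by positivity) hΛ
      refine (hj _ _ _ (hle w x hw.2).le (hle w _ (hself w)).le
        (((hup _ (hp w) b).trans_lt (mul_lt_mul_of_pos_left b pΛ)).trans_le h.Λ_le) _
        (hmem w x hw.1 hw.2) (hmem w _ hw.1 (hself w))).trans ?_
      have e1 : -c / (th ^ 2 * sg al q (tw q w))⁻¹ = -(c * th ^ 2) * sg al q (tw q w) := by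
        rw [div_inv_eq_mul]; ring
      have e2 : -(a1 / al) * Real.exp w.re = -a1 * sg al q (tw q w) := by
        rw [sg_tw hq]; ring
      rw [e1, e2, mul_assoc]
      exact mul_le_mul_of_nonneg_left (hA1 _ _ ps (hp w)
        (inv_le_sg ha hq (hp w) (by linarith [h.r3_le]))) pj
  obtain ⟨C', pC, hC'⟩ := W.flat_exp pη (div_pos pa1 ha) hap fun N => by
    obtain ⟨C', hC'⟩ := h.flat (q * N)
    refine ⟨C', fun w hw => ?_⟩
    have b := hC' _ _ (hmem w _ hw (hself w))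
    rw [pow_mul, norm_tw_pow hq, ← Real.exp_nat_mul, show (N : ℝ) * -w.re = -N * w.re by ring] at b
    rw [Prod.norm_def]
    exact max_le b.1 b.2
  refine ⟨C' * A2, by positivity, fun t a b => ?_⟩
  have ht := tw_log hq (norm_pos_iff.1 a)
  set w := -(q * Complex.log t) with hw
  have hRw : R < w.re := (hlt w).2 (by rwa [ht])
  refine ⟨ρx w.re, ht ▸ hmem w _ hRw (hself w), ht ▸ (hle w _ (hself w)).le, ?_⟩
  have b1 := hC' w hRw
  have e3 := sg_tw hq al w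
  rw [ht] at b1 e3
  have ps := sg_pos (q := q) ha a
  have e4 : Real.exp w.re = al * sg al q t := by rw [e3]; field_simp
  have b2 := hA2 (sg al q t) (al * sg al q t)⁻¹ ps (by positivity) (by rw [inv_inv])
  rw [pow_one, div_inv_eq_mul] at b2
  rw [e4, show -(a1 / al) * (al * sg al q t) = -a1 * sg al q t by field_simp] at b1
  refine b1.trans ?_
  rw [mul_assoc, mul_assoc, mul_assoc]
  exact mul_le_mul_of_nonneg_left (by linarith) pC

end Crest.Agent.N250.Cc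

end
end

-- ▼ part N250/Cc/Main

/-!
# Row 250, block (B2), helper93: the glued curve `Z s t` (`Cc.curve`).
-/

set_option autoImplicit false
set_option linter.unusedSectionVars false

open Set Metric Filter Topology Function

noncomputable section

namespace Crest.Agent.N250.Cc
open B2

variable {ι κ Γ : Type} [Fintype ι] [Fintype κ] [DecidableEq κ] {P : ℕ → ι ⊕ κ → ℝ} {q : ℕ}
  {al : ℝ} {Q : Cells Γ} {F : (κ → Γ) → (ι ⊕ κ → ℂ) → ℂ} {r c C d Λ r3 C1 : ℝ} {K μ : ℕ} {f0 : ℂ}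
  {z : ℝ → ℂ → ι ⊕ κ → ℂ}

theorem An.pos {th Lam s : ℝ} {t : ℂ} (hq : 0 < q) (h : 0 < th * s) (ht : t ∈ An al q th Lam s) :
    0 < ‖t‖ := by
  refine norm_pos_iff.2 fun h0 => ?_
  have := ht.1
  rw [h0, sg, norm_zero, zero_pow hq.ne', mul_zero, inv_zero] at this
  linarith


theorem Cv.mono {lam L Lam th s1 : ℝ} {M : ℕ} {Z : ℝ → ℂ → ι ⊕ κ → ℂ}
    (h : Cv Q F r P q al L Lam th s1 C M f0 Z) (ha : 0 < al) (hq : 0 < q) (hC : 0 ≤ C)
    (hl : lam ≤ L) : Cv Q F r P q al lam Lam th s1 C M f0 Z := by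
  have e : ∀ s, 0 < s → Real.exp (-L * s) ≤ Real.exp (-lam * s) := fun s hs =>
    Real.exp_le_exp.2 (by nlinarith)
  have e2 : ∀ s, 0 < s → Real.exp (-(2 * L) * s) ≤ Real.exp (-(2 * lam) * s) := fun s hs =>
    Real.exp_le_exp.2 (by nlinarith)
  have t0 := h.th_pos
  refine ⟨h.th_pos, h.th_lt, h.s1_pos, h.hol, h.c1, fun s hs t ht => ?_, h.near, h.dom,
    fun s hs t ht ρ h1 h2 => ?_, fun s hs t ht ρ h1 h2 => ?_⟩
  · obtain ⟨Z', a, b⟩ := h.ds s hs t ht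
    exact ⟨Z', a, b.trans (mul_le_mul_of_nonneg_left (e s (h.s1_pos.trans hs)) hC)⟩
  · exact (h.grad s hs t ht ρ h1 h2).trans
      (mul_le_mul_of_nonneg_left (e s (h.s1_pos.trans hs)) hC)
  · have ps := h.s1_pos.trans hs
    have := sg_pos (q := q) ha (An.pos hq (by positivity) ht)
    have pρ : 0 < ρ := lt_of_lt_of_le (by positivity) h1
    exact (h.val s hs t ht ρ h1 h2).trans (mul_le_mul_of_nonneg_left
      (add_le_add (e _ (by positivity)) (e2 s ps)) hC)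

/-- arithmetic of the scales -/
theorem scales {th s : ℝ} (t1 : th < 1) (hs : 1 / (1 - th) + 1 < s) :
    0 < (⌊s⌋ : ℝ) ∧ th * (⌊s⌋ + 1) ≤ ⌊s⌋ ∧ (⌊s⌋ : ℝ) ≤ s ∧ s < ⌊s⌋ + 1 := by
  have a := Int.floor_le s
  have b := Int.lt_floor_add_one s
  have p : 0 < 1 - th := by linarith
  have c1 : 1 / (1 - th) < ⌊s⌋ := by linarith
  have c2 := (div_lt_iff₀ p).1 c1
  exact ⟨(one_div_pos.2 p).trans c1, by nlinarith, a, b⟩

/-- the two cells used at the scale `s` -/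
theorem key {th Lam : ℝ} (hc : 0 < c) (ha : 0 < al) (hq : 0 < q) (t0 : 0 < th) (t1 : th < 1)
    (hL : 1 ≤ Lam) (hΛ : Lam * al / th ^ 4 ≤ Λ) (p3 : 0 < r3) (l3 : r3 ≤ 1 / 2) (n : ℕ) :
    ∃ s1 D, 0 < s1 ∧ 0 ≤ D ∧ ∀ s, s1 < s → ∀ t ∈ An al q th Lam s, 0 < ‖t‖ ∧ ‖t‖ < r3 ∧
      (th ^ 2 * s)⁻¹ ≤ (th ^ 3 * ((⌊s⌋ + 1 : ℤ) : ℝ))⁻¹ ∧
      (th ^ 3 * ((⌊s⌋ + 1 : ℤ) : ℝ))⁻¹ ≤ (th ^ 3 * (⌊s⌋ : ℝ))⁻¹ ∧
      (th ^ 2 * sg al q t)⁻¹ ≤ (th ^ 3 * (⌊s⌋ : ℝ))⁻¹ ∧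
      t ∈ OO al q th⁻¹ Λ r3 (th ^ 3 * (⌊s⌋ : ℝ))⁻¹ ∧
      t ∈ OO al q th⁻¹ Λ r3 (th ^ 3 * ((⌊s⌋ + 1 : ℤ) : ℝ))⁻¹ ∧
      Real.exp (-c / (th ^ 3 * (⌊s⌋ : ℝ))⁻¹) / ‖t‖ ^ n ≤ D * Real.exp (-(c * th ^ 4) * s) := by
  have pΛ : 0 < Λ := lt_of_lt_of_le (by positivity) hΛ
  have h43 : th ^ 4 < th ^ 3 := pow_lt_pow_right_of_lt_one₀ t0 t1 (by norm_num)
  obtain ⟨A, pA, hA⟩ := poly_abs n (mul_lt_mul_of_pos_left h43 hc) (A := al * Lam) (by positivity)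
  set s1 := max (1 / (1 - th) + 1) (th * (al * r3 ^ q))⁻¹ with hs1
  have p1 : 0 < s1 := lt_of_lt_of_le (by positivity) (le_max_right _ _)
  set D := Real.exp c * A with hD
  refine ⟨s1, D, p1, by positivity, ?_⟩
  intro s hs t ht
  have ps : 0 < s := p1.trans hs
  obtain ⟨k0, k1, k2, k3⟩ := scales t1 ((le_max_left _ _).trans_lt hs)
  have a0 := An.pos hq (by positivity) ht
  have psg := sg_pos (q := q) ha a0
  have esg : al * ‖t‖ ^ q = (sg al q t)⁻¹ := by rw [sg, inv_inv]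
  have a1 : ‖t‖ < r3 := by
    have b1 : (th * (al * r3 ^ q))⁻¹ < s := (le_max_right _ _).trans_lt hs
    have b2 : (al * r3 ^ q)⁻¹ < sg al q t := by
      refine lt_trans ?_ ht.1
      rw [mul_inv, inv_mul_lt_iff₀ t0] at b1; exact b1
    rw [sg, inv_lt_inv₀ (by positivity) (by positivity)] at b2
    exact lt_of_pow_lt_pow_left₀ q p3.le (lt_of_mul_lt_mul_left b2 ha.le)
  have a2 : ‖t‖ ≤ 1 := by linarith [l3]
  push_cast
  have a3 : (th ^ 2 * s)⁻¹ ≤ (th ^ 3 * ((⌊s⌋ : ℝ) + 1))⁻¹ :=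
    inv_anti₀ (by positivity) (by nlinarith [pow_pos t0 2])
  have a4 : (th ^ 3 * ((⌊s⌋ : ℝ) + 1))⁻¹ ≤ (th ^ 3 * (⌊s⌋ : ℝ))⁻¹ :=
    inv_anti₀ (by positivity) (by nlinarith [pow_pos t0 3])
  have a5 : (th ^ 2 * sg al q t)⁻¹ ≤ (th ^ 3 * (⌊s⌋ : ℝ))⁻¹ :=
    inv_anti₀ (by positivity) (by nlinarith [pow_pos t0 2, pow_pos t0 3, ht.1])
  have a6 : th⁻¹ * (al * ‖t‖ ^ q) < (th ^ 2 * s)⁻¹ := by
    rw [esg, ← mul_inv]
    exact inv_strictAnti₀ (by positivity) (by nlinarith [ht.1])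
  have a7 : (th ^ 3 * (⌊s⌋ : ℝ))⁻¹ < Λ * ‖t‖ := by
    have b1 : (th ^ 3 * (⌊s⌋ : ℝ))⁻¹ < (th ^ 4 * (sg al q t / Lam))⁻¹ := by
      refine inv_strictAnti₀ (by positivity) ?_
      have : sg al q t / Lam < s := by rw [div_lt_iff₀ (by linarith)]; linarith [ht.2]
      nlinarith [pow_pos t0 3, pow_pos t0 4]
    refine b1.trans_le (le_trans (le_of_eq ?_) (mul_le_mul hΛ
      (pow_le_of_le_one a0.le a2 hq.ne') (by positivity) pΛ.le))
    rw [sg]; field_simp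
  refine ⟨a0, a1, a3, a4, a5, ⟨a0, a1, a6.trans_le (a3.trans a4), a7⟩,
    ⟨a0, a1, a6.trans_le a3, a4.trans_lt a7⟩, ?_⟩
  have b1 := hA s ‖t‖ ps a0 ((inv_le_sg ha hq a0 a2).trans (by nlinarith [ht.2]))
  have b2 : Real.exp (-c / (th ^ 3 * (⌊s⌋ : ℝ))⁻¹) ≤ Real.exp c * Real.exp (-(c * th ^ 3) * s) := by
    rw [← Real.exp_add, div_inv_eq_mul]
    refine Real.exp_le_exp.2 ?_
    have b3 : th ^ 3 ≤ 1 := pow_le_one₀ t0.le t1.le
    have b4 : th ^ 3 * (s - ⌊s⌋) ≤ 1 := by nlinarith [pow_pos t0 3]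
    nlinarith
  refine (div_le_div_of_nonneg_right b2 (by positivity)).trans ?_
  rw [mul_div_assoc, hD, mul_assoc]
  exact mul_le_mul_of_nonneg_left b1 (Real.exp_pos _).le

set_option maxHeartbeats 1000000 in
theorem Fm.cv {th Lam : ℝ} (h : Fm Q F r c P q al th⁻¹ Λ r3 K f0 z μ C1) (hW : Wk Q F r c C)
    (ha : 0 < al) (hq : 0 < q) (t0 : 0 < th) (t1 : th < 1) (hL : 1 ≤ Lam)
    (hΛ : Lam * al / th ^ 4 ≤ Λ) : ∃ s1 C', 0 ≤ C' ∧
      Cv Q F r P q al (c * th ^ 4) Lam th s1 C' (K + 1) f0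
        (glue fun k : ℤ => z (th ^ 3 * k)⁻¹) := by
  have hd : 1 < th⁻¹ := (one_lt_inv₀ t0).2 t1
  have hc := hW.c_pos
  have p3 := h.r3_pos
  have pΛ : 0 < Λ := lt_of_lt_of_le (by positivity) hΛ
  have h42 : th ^ 4 ≤ th ^ 2 := pow_le_pow_of_le_one t0.le t1.le (by norm_num)
  obtain ⟨Ce, pe, he⟩ := h.exp_small hW ha hq t0 t1 (le_trans (by
    rw [inv_mul_eq_div]
    exact div_le_div₀ (by positivity) (by nlinarith) (by positivity) h42) hΛ)
  obtain ⟨Cj, pj, hj⟩ := h.jmp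
  obtain ⟨s1, D, p1, pD, key⟩ := key hc ha hq t0 t1 hL hΛ p3 h.r3_le (μ + 2 * K)
  obtain ⟨Bχ, pχ, hχ⟩ := chi_bd
  set B := 2 * (Fintype.card κ * max C 0) with hB
  have pB : 0 ≤ B := by positivity
  have pM : 0 ≤ max C 0 := le_max_right _ _
  have near : ∀ s, s1 < s → ∀ t ∈ An al q th Lam s,
      ‖glue (fun k : ℤ => z (th ^ 3 * k)⁻¹) s t - B2.cv P (K + 1) t‖ ≤ C1 * ‖t‖ ^ (K + 1) :=
    fun s hs t ht => by
      obtain ⟨-, -, -, -, -, m0, m1, -⟩ := key s hs t ht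
      exact glue_near (h.near _ t m0) (h.near _ t m1)
  -- gradient and value
  have gv : ∀ s, s1 < s → ∀ t ∈ An al q th Lam s, ∀ ρ, (th * sg al q t)⁻¹ ≤ ρ →
      ρ ≤ (th ^ 2 * s)⁻¹ →
      ‖fderiv ℂ (Fd Q F ρ) (glue (fun k : ℤ => z (th ^ 3 * k)⁻¹) s t)‖ ≤
        (Ce + (4 * B + 32 * max C 0 * Cj) * D) * Real.exp (-(c * th ^ 4) * s) ∧
      ‖Fd Q F ρ (glue (fun k : ℤ => z (th ^ 3 * k)⁻¹) s t) - f0‖ ≤
        (B + Ce) * Real.exp (-(c * th ^ 4) * (th ^ 2 * ρ)⁻¹) +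
          (Ce * (Cj * D) + 16 * max C 0 * (Cj * D) ^ 2) * Real.exp (-(2 * (c * th ^ 4)) * s) := by
    intro s hs t ht ρ r1 r2
    obtain ⟨a0, a1, a3, a4, a5, m0, m1, hβ⟩ := key s hs t ht
    obtain ⟨ρ', m2, l2, e2⟩ := he t a0 a1
    have ps : 0 < s := p1.trans hs
    have psg := sg_pos (q := q) ha a0
    have a2 : ‖t‖ ≤ 1 := by linarith [h.r3_le]
    have pρ : 0 < ρ := lt_of_lt_of_le (by positivity) r1
    have pρ' := OO.pos ha hd m2
    have hm := OO.lt ha hd h.Λ_le m0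
    set ρm := (th ^ 3 * (⌊s⌋ : ℝ))⁻¹ with hρm
    have l1 : ρ ≤ ρm := r2.trans (a3.trans a4)
    have s1' := h.sub t a1 ρ (by rwa [sg, mul_inv, inv_inv] at r1) pρ (l1.trans_lt hm)
    have s2' := h.sub' ha hd m2
    have hA1 := EX.adm_disc (κ := κ) Q pρ (l1.trans_lt hm)
    have hA2 := EX.adm_disc (κ := κ) Q pρ' ((l2.trans a5).trans_lt hm)
    have hM : ∀ y ∈ ball (B2.cv P (K + 1) t) (‖t‖ ^ K), ‖Fd Q F ρ' y‖ ≤ max C 0 := fun y hy =>
      (hW.bdd _ hA2 y (s2' hy)).trans (le_max_left _ _)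
    have i1 := h.in4' a0 a1 (near s hs t ht)
    have i2 := h.in4 m2
    set Z := glue (fun k : ℤ => z (th ^ 3 * k)⁻¹) s t with hZ
    set e := Real.exp (-c / ρm) with he'
    have pe' : 0 < e := Real.exp_pos _
    set E := Real.exp (-(c * th ^ 4) * s) with hE
    have pE : 0 < E := Real.exp_pos _
    have dz : ‖Z - z ρ' t‖ ≤ Cj * (e / ‖t‖ ^ μ) :=
      glue_near (hj _ _ ρm le_rfl (l2.trans a5) hm t m0 m2) (hj _ _ ρm a4 (l2.trans a5) hm t m1 m2)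
    have b0 : ∀ n ≤ μ + 2 * K, e / ‖t‖ ^ n ≤ D * E := fun n hn =>
      (div_le_div_of_nonneg_left pe'.le (by positivity) (pow_le_pow_of_le_one a0.le a2 hn)).trans hβ
    have eE : Real.exp (-(c * th ^ 3) * sg al q t) ≤ E :=
      Real.exp_le_exp.2 (by nlinarith [ht.1, mul_pos hc (pow_pos t0 3)])
    have g0 : ‖fderiv ℂ (Fd Q F ρ') (z ρ' t)‖ ≤ Ce * E :=
      ((norm_fst_le (HH Q F f0 z ρ' t)).trans e2).trans (mul_le_mul_of_nonneg_left eE pe)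
    have v0 : ‖Fd Q F ρ' (z ρ' t) - f0‖ ≤ Ce * Real.exp (-(c * th ^ 3) * sg al q t) :=
      (norm_snd_le (HH Q F f0 z ρ' t)).trans e2
    constructor
    · have g1 := pair_grad ((hW.hol _ hA1).mono s1') ((hW.hol _ hA2).mono s2') hM
        (fun y hy => fd_cmp hW pρ pρ' l1 (l2.trans a5) hm (s1' hy) (s2' hy)) i1 i2
      have c1 : 32 * max C 0 / (‖t‖ ^ K) ^ 2 * ‖Z - z ρ' t‖ ≤ 32 * max C 0 * Cj * (D * E) := by
        refine (mul_le_mul_of_nonneg_left dz (by positivity)).trans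
          (le_trans (le_of_eq ?_) (mul_le_mul_of_nonneg_left (b0 _ le_rfl) (by positivity)))
        field_simp; ring
      have c3 : 4 * (B * e) / ‖t‖ ^ K ≤ 4 * B * (D * E) := by
        rw [← mul_assoc, mul_div_assoc]
        exact mul_le_mul_of_nonneg_left (b0 K (by omega)) (by positivity)
      have c4 := norm_le_norm_add_norm_sub' (fderiv ℂ (Fd Q F ρ) Z) (fderiv ℂ (Fd Q F ρ') (z ρ' t))
      unfold Fd at *
      linarith
    · set E' := Real.exp (-(c * th ^ 4) * (th ^ 2 * ρ)⁻¹) with hE'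
      have u1 : ρ⁻¹ ≤ th * sg al q t := by rwa [inv_le_comm₀ (by positivity) pρ] at r1
      have pu : 0 < ρ⁻¹ := by positivity
      have u2 : -(c * th ^ 4) * (th ^ 2 * ρ)⁻¹ = -(c * th ^ 2 * ρ⁻¹) := by field_simp
      have w1 : Real.exp (-(c * th ^ 3) * sg al q t) ≤ E' := by
        rw [hE', u2]
        exact Real.exp_le_exp.2 (by nlinarith [mul_pos hc (pow_pos t0 2)])
      have w2 : Real.exp (-c / max ρ (th ^ 2 * sg al q t)⁻¹) ≤ E' := by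
        rcases le_total ρ (th ^ 2 * sg al q t)⁻¹ with h' | h'
        · rw [max_eq_right h', div_inv_eq_mul]
          refine le_trans (Real.exp_le_exp.2 ?_) w1
          have : th ^ 3 ≤ th ^ 2 := pow_le_pow_of_le_one t0.le t1.le (by norm_num)
          nlinarith [mul_pos hc psg]
        · rw [max_eq_left h', hE', u2, div_eq_mul_inv]
          refine Real.exp_le_exp.2 ?_
          have : th ^ 2 ≤ 1 := pow_le_one₀ t0.le t1.le
          nlinarith [mul_pos hc pu]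
      have g1 := pair_val ((hW.hol _ hA2).mono s2') hM
        (fun y hy => fd_cmp hW pρ pρ' (le_max_left _ _) (l2.trans (le_max_right _ _))
          (max_lt (l1.trans_lt hm) (a5.trans_lt hm)) (s1' hy) (s2' hy)) i1 i2
      have E2 : Real.exp (-(2 * (c * th ^ 4)) * s) = E * E := by
        rw [hE, ← Real.exp_add]; congr 1; ring
      have d1 : ‖Z - z ρ' t‖ ≤ Cj * D * E := by
        rw [mul_assoc]; exact dz.trans (mul_le_mul_of_nonneg_left (b0 μ (by omega)) pj)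
      have d2 : ‖Z - z ρ' t‖ / ‖t‖ ^ K ≤ Cj * D * E := by
        rw [mul_assoc]
        refine (div_le_div_of_nonneg_right dz (by positivity)).trans (le_trans (le_of_eq ?_)
          (mul_le_mul_of_nonneg_left (b0 (μ + K) (by omega)) pj))
        field_simp; ring
      have c1 : ‖fderiv ℂ (Fd Q F ρ') (z ρ' t)‖ * ‖Z - z ρ' t‖ ≤ Ce * (Cj * D) * (E * E) :=
        (mul_le_mul g0 d1 (norm_nonneg _) (by positivity)).trans (le_of_eq (by ring))
      have c2 : 16 * max C 0 / (‖t‖ ^ K) ^ 2 * ‖Z - z ρ' t‖ ^ 2 ≤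
          16 * max C 0 * (Cj * D) ^ 2 * (E * E) := by
        have := pow_le_pow_left₀ (by positivity) d2 2
        refine le_trans (le_of_eq ?_) ((mul_le_mul_of_nonneg_left this
          (by positivity : 0 ≤ 16 * max C 0)).trans (le_of_eq (by ring)))
        field_simp
      have c4 := norm_sub_le_norm_sub_add_norm_sub (Fd Q F ρ Z) (Fd Q F ρ' (z ρ' t)) f0
      have c5 := mul_le_mul_of_nonneg_left w2 pB
      have c6 := mul_le_mul_of_nonneg_left w1 pe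
      rw [E2]
      unfold Fd at *
      linarith
  set C2 := Ce + (4 * B + 32 * max C 0 * Cj) * D with hC2
  set C3 := Ce * (Cj * D) + 16 * max C 0 * (Cj * D) ^ 2 with hC3
  have q1 := h.C_nonneg
  have q2 : 0 ≤ C2 := by positivity
  have q3 : 0 ≤ C3 := by positivity
  have q4 : 0 ≤ Bχ * (Cj * D) := by positivity
  refine ⟨s1, C1 + C2 + C3 + (B + Ce) + Bχ * (Cj * D), by positivity, t0, t1, p1,
    fun s hs => ?_, fun s hs t ht => ?_, fun s hs t ht => ⟨_, glue_ds _ s t, ?_⟩,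
    fun s hs t ht => ?_, fun s hs t ht => ?_, fun s hs t ht ρ r1 r2 => ?_,
    fun s hs t ht ρ r1 r2 => ?_⟩
  · exact glue_hol ((h.hol _).mono fun t ht => (key s hs t ht).2.2.2.2.2.1)
      ((h.hol _).mono fun t ht => (key s hs t ht).2.2.2.2.2.2.1)
  · obtain ⟨-, -, -, -, -, m0, m1, -⟩ := key s hs t ht
    exact glue_c1 ((h.hol _).analyticAt ((isOpen_OO _ _ _ _ _ _).mem_nhds m0))
      ((h.hol _).analyticAt ((isOpen_OO _ _ _ _ _ _).mem_nhds m1))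
  · obtain ⟨a0, a1, -, a4, -, m0, m1, hβ⟩ := key s hs t ht
    have b1 := hj _ _ _ a4 le_rfl (OO.lt ha hd h.Λ_le m0) t m1 m0
    have b2 := (div_le_div_of_nonneg_left (Real.exp_pos _).le (by positivity)
      (pow_le_pow_of_le_one a0.le (by linarith [h.r3_le]) (by omega : μ ≤ μ + 2 * K))).trans hβ
    have b3 := hχ (s - ⌊s⌋) ⟨by linarith [Int.floor_le s], by linarith [Int.lt_floor_add_one s]⟩
    rw [norm_smul, Real.norm_eq_abs]
    refine (mul_le_mul b3 (b1.trans (mul_le_mul_of_nonneg_left b2 pj)) (norm_nonneg _) pχ).trans ?_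
    rw [← mul_assoc Cj, ← mul_assoc]
    exact mul_le_mul_of_nonneg_right (by linarith) (Real.exp_pos _).le
  · exact (near s hs t ht).trans (mul_le_mul_of_nonneg_right (by linarith) (by positivity))
  · obtain ⟨a0, a1, a3, a4, -, m0, -, -⟩ := key s hs t ht
    have psg := sg_pos (q := q) ha a0
    refine ⟨(a3.trans a4).trans_lt (OO.lt ha hd h.Λ_le m0), fun ρ r1 r2 => Subset.trans ?_
      (h.sub t a1 ρ (by rwa [sg, mul_inv, inv_inv] at r1) (lt_of_lt_of_le (by positivity) r1) r2)⟩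
    refine (ball_subset_ball ?_).trans (sub_half (h.in4' a0 a1 (near s hs t ht)))
    rw [pow_succ]
    nlinarith [pow_pos a0 K, h.r3_le]
  · exact (gv s hs t ht ρ r1 r2).1.trans
      (mul_le_mul_of_nonneg_right (by linarith) (Real.exp_pos _).le)
  · refine (gv s hs t ht ρ r1 r2).2.trans ?_
    rw [mul_add]
    exact add_le_add (mul_le_mul_of_nonneg_right (by linarith) (Real.exp_pos _).le)
      (mul_le_mul_of_nonneg_right (by linarith) (Real.exp_pos _).le)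


/-- every rate below `c` is reached, with `th` as close to `1` as wanted -/
theorem exists_th {lam c th0 : ℝ} (h : lam < c) (h0 : th0 < 1) :
    ∃ th, 0 < th ∧ th < 1 ∧ th0 < th ∧ lam ≤ c * th ^ 4 := by
  have h1 : Tendsto (fun th : ℝ => c * th ^ 4) (𝓝[<] 1) (𝓝 c) := by
    have : Continuous fun th : ℝ => c * th ^ 4 := by fun_prop
    simpa using (this.tendsto 1).mono_left nhdsWithin_le_nhds
  have h2 : ∀ᶠ x in 𝓝[<] (1 : ℝ), x ∈ Ioo (max th0 0) 1 := Ioo_mem_nhdsLT (max_lt h0 one_pos)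
  obtain ⟨th, a, b⟩ := ((h1.eventually_const_lt h).and h2).exists
  exact ⟨th, (le_max_right _ _).trans_lt b.1, b.2, (le_max_left _ _).trans_lt b.1, a.le⟩

end Crest.Agent.N250.Cc

end
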